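import Vale.Agent.Lib.P229.Helicoid

open scoped ContDiff

namespace Vale.Agent.Results.P229.TranslationInvariant

/-- Every smooth Riemannian metric `E dx^2 + 2 F dx dy + G dy^2` on an open subset of the plane
whose coefficients have vanishing derivative in the `y` direction (so that translation in `y` is a
local isometry) is locally smoothly realizable in Euclidean three-space at every point. -/
theorem result
    (Ω : Set (ℝ × ℝ)) (hΩ : IsOpen Ω) (E F G : ℝ × ℝ → ℝ)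
    (hE : ContDiffOn ℝ ∞ E Ω) (hF : ContDiffOn ℝ ∞ F Ω) (hG : ContDiffOn ℝ ∞ G Ω)
    (hpos : ∀ q ∈ Ω, 0 < E q ∧ 0 < E q * G q - F q ^ 2)
    (hEy : ∀ q ∈ Ω, fderiv ℝ E q (0, 1) = 0)
    (hFy : ∀ q ∈ Ω, fderiv ℝ F q (0, 1) = 0)
    (hGy : ∀ q ∈ Ω, fderiv ℝ G q (0, 1) = 0)
    (p : ℝ × ℝ) (hp : p ∈ Ω) :
    ∃ U : Set (ℝ × ℝ), IsOpen U ∧ p ∈ U ∧ U ⊆ Ω ∧
      ∃ Φ : ℝ × ℝ → EuclideanSpace ℝ (Fin 3), ContDiffOn ℝ ∞ Φ U ∧ ∀ q ∈ U,
        inner ℝ (fderiv ℝ Φ q (1, 0)) (fderiv ℝ Φ q (1, 0)) = E q ∧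
        inner ℝ (fderiv ℝ Φ q (1, 0)) (fderiv ℝ Φ q (0, 1)) = F q ∧
        inner ℝ (fderiv ℝ Φ q (0, 1)) (fderiv ℝ Φ q (0, 1)) = G q :=
  Vale.Agent.Lib.P229.translation_invariant_realizable Ω hΩ E F G hE hF hG hpos hEy hFy hGy p hp

end Vale.Agent.Results.P229.TranslationInvariant
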